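import Vale.Agent.P281.H716.Core

/-! P281, theorem KG: the generic rank of `θ`, when the sections may have common zeros. -/

open scoped Manifold ContDiff Topology ComplexOrder Matrix
open Set Filter Vale.Agent.P281 Vale.Agent.P272.K
open Vale.Agent.P281.H949.SA Vale.Agent.P281.H716 Vale.Agent.P281.H716.IsSys

set_option linter.all false

noncomputable section

namespace Vale.Agent.P281.H167.KG

variable {n : ℕ} {X : Type} [TopologicalSpace X] [ChartedSpace (Cm n) X]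
  [IsManifold 𝓘(ℂ, Cm n) ω X] {κ : Type} {eqn : κ → X → (X → ℂ) → Prop} {T : Finset κ}

/-- generic rank -/
theorem coreG [ConnectedSpace X] (h : IsSys n eqn T) {mP : ℕ} {kP : κ → ℕ}
    (hkP : ∀ D, kP D ≠ 0 → D ∈ T) {ι : Type} [Finite ι] {P : ι → X → ℂ}
    (hP : ∀ i, J.IsSection (Cm n) eqn mP kP (P i))
    {θ : Chart n X → Cm n → Matrix (Fin n) (Fin n) ℂ}
    (hθ : ∀ e x, At e x → ∀ i j, ContinuousAt (fun z => θ e z i j) (e x))
    (hP0 : Dense {x | x ∈ off eqn T ∧ ∃ i, P i x ≠ 0})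
    (hker : ∀ e x, At e x → x ∈ off eqn T → ∀ i₀, P i₀ x ≠ 0 → ∀ v : Cm n,
      (∀ j, ∑ i, v i * θ e (e x) i j = 0) ↔
        ∀ i, fderiv ℂ (fun z => P i (e.symm z) / P i₀ (e.symm z)) (e x) v = 0) :
    ∃ (ν : ℕ) (R : Set X), (∀ e x, At e x → (θ e (e x)).rank ≤ ν) ∧ IsOpen R ∧ Dense R ∧
      (∀ x ∈ R, x ∈ off eqn T ∧ (∃ i, P i x ≠ 0) ∧ ∀ e, At e x → (θ e (e x)).rank = ν) ∧
      ∀ (ν' : ℕ) (x : X) (i₀ : ι) (c : Fin ν' → ι), x ∈ off eqn T → P i₀ x ≠ 0 →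
        LinearIndependent ℂ (fun l => dV (Cm n) (fun w => P (c l) w / P i₀ w) x) → ν' ≤ ν := by
  classical
  -- the differentials
  have hdV : ∀ {x : X} {e : Chart n X} (i i₀ : ι), At e x → x ∈ off eqn T → P i₀ x ≠ 0 →
      dV (Cm n) (fun w => P i w / P i₀ w) x =
        (fderiv ℂ (fun z => P i (e.symm z) / P i₀ (e.symm z)) (e x)).comp (De e x) :=
    fun i i₀ he hx h0 => dV_eq_fderiv he (h.holV_ratio hkP (hP i₀) (hP i) hx h0)
  set R : Set ℕ := {r | ∃ x ∈ off eqn T, (∃ i, P i x ≠ 0) ∧ ∃ e : Chart n X, At e x ∧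
    (θ e (e x)).rank = r} with hR
  have hRb : BddAbove R := by
    refine ⟨n, ?_⟩
    rintro r ⟨x, hx, -, e, he, rfl⟩
    have := Matrix.rank_le_card_width (θ e (e x))
    simpa using this
  have hRne : R.Nonempty := by
    obtain ⟨x, hx, hx'⟩ := hP0.nonempty
    exact ⟨_, x, hx, hx', chartAt (Cm n) x, ⟨chart_mem_atlas _ _, mem_chart_source _ _⟩, rfl⟩
  obtain ⟨ν, hνR, hνmax⟩ : ∃ ν ∈ R, ∀ r ∈ R, r ≤ ν :=
    ⟨sSup R, Nat.sSup_mem hRne hRb, fun r hr => le_csSup hRb hr⟩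
  have hle : ∀ e x, At e x → (θ e (e x)).rank ≤ ν := by
    intro e x he
    by_contra hcon
    have h1 := H716.rank_lsc (r := ν + 1) (hθ e x he) (by omega)
    have h2 : ∀ᶠ y in 𝓝 x, ν + 1 ≤ (θ e (e y)).rank :=
      (e.continuousAt he.2).tendsto.eventually h1
    obtain ⟨y, hy, hy1, hy2⟩ := ((mem_closure_iff_frequently.1 (hP0 x)).and_eventually
      (h2.and (at_ev he))).exists
    have := hνmax _ ⟨y, hy.1, hy.2, e, hy2, rfl⟩
    omega
  obtain ⟨x₁, hx₁, ⟨i₀, hi₀⟩, e₁, he₁, hrk₁⟩ := hνR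
  obtain ⟨g, hg⟩ : ∃ g : Fin ν → ι, LinearIndependent ℂ fun l => fderiv ℂ (fun z =>
      P (g l) (e₁.symm z) / P i₀ (e₁.symm z)) (e₁ x₁) := by
    rw [← hrk₁]
    exact exists_indep
      (fun i => fderiv ℂ (fun z => P i (e₁.symm z) / P i₀ (e₁.symm z)) (e₁ x₁))
      (H := θ e₁ (e₁ x₁)) (fun v => mem_KH.trans (hker e₁ x₁ he₁ hx₁ i₀ hi₀ v))
  have hone : ∀ B : Cm n →L[ℂ] ℂ, (1 : ℂ) • B = B := fun B => one_smul _ B
  have hind₁ : Ind n (fun b => P ((Fin.cons i₀ g : Fin (ν + 1) → ι) b)) x₁ := by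
    refine ⟨hi₀, ?_⟩
    have h1 : (fun b : Fin ν => dV (Cm n) (fun w => P ((Fin.cons i₀ g : Fin (ν + 1) → ι) b.succ) w /
        P ((Fin.cons i₀ g : Fin (ν + 1) → ι) 0) w) x₁) = fun b : Fin ν => ((1 : ℂ) •
        fderiv ℂ (fun z => P (g b) (e₁.symm z) / P i₀ (e₁.symm z)) (e₁ x₁)).comp (De e₁ x₁) := by
      funext b
      rw [Fin.cons_succ, Fin.cons_zero, hdV (g b) i₀ he₁ hx₁ hi₀, hone]
    show LinearIndependent ℂ (fun b : Fin ν => dV (Cm n)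
      (fun w => P ((Fin.cons i₀ g : Fin (ν + 1) → ι) b.succ) w /
        P ((Fin.cons i₀ g : Fin (ν + 1) → ι) 0) w) x₁)
    rw [h1]
    exact (indep_comp_iff (dj_ne_zero he₁) one_ne_zero).2 hg
  -- rank from independence
  have hrank : ∀ (ν' : ℕ) (x : X) (i₀ : ι) (c : Fin ν' → ι), x ∈ off eqn T → P i₀ x ≠ 0 →
      LinearIndependent ℂ (fun l => dV (Cm n) (fun w => P (c l) w / P i₀ w) x) →
      ∀ e, At e x → ν' ≤ (θ e (e x)).rank := by
    intro ν' x i₀ c hx h0 hc e he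
    set B : Fin ν' → (Cm n →L[ℂ] ℂ) := fun l =>
      fderiv ℂ (fun z => P (c l) (e.symm z) / P i₀ (e.symm z)) (e x) with hBdef
    have h1 : (fun l : Fin ν' => dV (Cm n) (fun w => P (c l) w / P i₀ w) x) =
        fun l => ((1 : ℂ) • B l).comp (De e x) := by
      funext l
      rw [hdV _ _ he hx h0, hone]
    have hB : LinearIndependent ℂ B := by
      rw [h1] at hc
      exact (indep_comp_iff (dj_ne_zero he) one_ne_zero).1 hc
    have h2 := finrank_common hB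
    have h3 := finrank_KH (θ e (e x))
    have h4 : KH (θ e (e x)) ≤ (⨅ l, LinearMap.ker (B l : Cm n →ₗ[ℂ] ℂ) : Submodule ℂ (Cm n)) := by
      intro v hv
      rw [Submodule.mem_iInf]
      intro l
      exact (hker e x he hx i₀ h0 v).1 (mem_KH.1 hv) (c l)
    have h5 := Submodule.finrank_mono h4
    omega
  obtain ⟨hd, ho⟩ := h.dense_ind (m := mP) hkP
    (s := fun b => P ((Fin.cons i₀ g : Fin (ν + 1) → ι) b)) (fun b => hP _) ⟨x₁, hx₁, hind₁⟩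
  refine ⟨ν, _, hle, ho, hd, ?_, ?_⟩
  · rintro x ⟨hx, hi⟩
    refine ⟨hx, ⟨_, hi.1⟩, fun e he => le_antisymm (hle e x he) ?_⟩
    exact hrank ν x ((Fin.cons i₀ g : Fin (ν + 1) → ι) 0)
      (fun l => (Fin.cons i₀ g : Fin (ν + 1) → ι) l.succ) hx hi.1 hi.2 e he
  · intro ν' x i₁ c hx h0 hc
    have he : At (chartAt (Cm n) x) x := ⟨chart_mem_atlas _ _, mem_chart_source _ _⟩
    exact (hrank ν' x i₁ c hx h0 hc _ he).trans (hle _ x he)

end Vale.Agent.P281.H167.KG
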