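import Vale.Agent.P281.H167.KG.SysDefs
import Vale.Agent.P281.H167.KG.Rank
import Vale.Agent.P281.H167.GM.M7

/-! P281, theorem KG: the data used in the proof, on a compact Kähler manifold with a system of
divisors. -/

open scoped Manifold ContDiff Topology ComplexOrder
open Set Filter Vale.Agent.P281 Vale.Agent.P272.K Vale.Agent.P299
open Vale.Agent.P272.K.INT (IsClosedForm)
open Vale.Agent.P272.K.AMP (hess)

noncomputable section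

set_option linter.all false

namespace Vale.Agent.P281.H167.KG

open Vale.Agent.P281.MF Vale.Agent.P281.ISO
open Vale.Agent.P281.H713 Vale.Agent.P281.H713.SA Vale.Agent.P281.H716
open Vale.Agent.P281.H716.IsSys
open Vale.Agent.P281.H167.GM (mixX addF)

section off

variable {n : ℕ} {X : Type} [TopologicalSpace X] [ChartedSpace (Cm n) X]
  [IsManifold 𝓘(ℂ, Cm n) ω X] {κ : Type} {eqn : κ → X → (X → ℂ) → Prop} {T : Finset κ}
  {m N : ℕ} {k : κ → ℕ} {S : Fin N → X → ℂ} {x : X} {r : ℕ} {g : Fin r → X → ℂ}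
  {a : Fin r → ℕ} {H : Fin N → X → ℂ}

/-- the sections off the divisors -/
theorem sysLoc_off (h : IsSys n eqn T) (hk : ∀ D, k D ≠ 0 → D ∈ T)
    (hL : SysLoc (n := n) eqn m k S x g a H) : ∃ c : X → ℂ, ∀ᶠ z in 𝓝 x, z ∈ off eqn T →
      c z ≠ 0 ∧ ∀ b, S b z = c z * ((∏ i, g i z ^ a i) * H b z) := by
  obtain ⟨T', e, hT', he, hev⟩ := hL.loc
  refine ⟨fun z => GM.cj n x z ^ m / ∏ D ∈ T', e D z ^ k D, ?_⟩
  filter_upwards [hev, h.prod_ne hk he, (chartAt (Cm n) x).open_source.mem_nhds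
    (mem_chart_source (Cm n) x)] with z h1 h2 h3 hz
  have h4 := h2 hz
  have h5 : GM.cj n x z ≠ 0 := GM.cj_ne h3
  refine ⟨div_ne_zero (pow_ne_zero _ h5) h4, fun b => ?_⟩
  have h6 : S b z * ∏ D ∈ T', e D z ^ k D =
    (∏ i, g i z ^ a i) * H b z * GM.cj n x z ^ m := h1 h4 b
  rw [div_mul_eq_mul_div, eq_div_iff h4, h6]
  ring

theorem holV_prodg (hL : SysLoc (n := n) eqn m k S x g a H) :
    HolV (Cm n) (fun z => ∏ i, g i z ^ a i) x :=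
  HolV.prod (s := Finset.univ) fun i _ => HolV.pow (hL.holg i).1 _

/-- the kernel of `θ` -/
theorem ker_of (h : IsSys n eqn T) (hk : ∀ D, k D ≠ 0 → D ∈ T)
    (hL : SysLoc (n := n) eqn m k S x g a H) {u : X → ℂ} (hu : HolV (Cm n) u x) (hu0 : u x ≠ 0)
    {θ : D.FormM n X}
    (hθ : ∀ e, At e x → ∀ b₀, H b₀ x * u x ≠ 0 → ∀ v : Cm n,
        (∀ j, ∑ i, v i * θ e (e x) i j = 0) ↔ ∀ b, fderiv ℂ (fun z =>
          (H b (e.symm z) * u (e.symm z)) / (H b₀ (e.symm z) * u (e.symm z))) (e x) v = 0)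
    {e : Chart n X} (he : At e x) (hx : x ∈ off eqn T) {b₀ : Fin N} (h0 : S b₀ x ≠ 0) (v : Cm n) :
    (∀ j, ∑ i, v i * θ e (e x) i j = 0) ↔
      ∀ b, fderiv ℂ (fun z => S b (e.symm z) / S b₀ (e.symm z)) (e x) v = 0 := by
  obtain ⟨c, hc⟩ := sysLoc_off h hk hL
  obtain ⟨hcx, hSx⟩ := hc.self_of_nhds hx
  have h1 : (∏ i, g i x ^ a i) ≠ 0 ∧ H b₀ x ≠ 0 := by
    have h2 := h0
    rw [hSx b₀] at h2
    exact ⟨left_ne_zero_of_mul (right_ne_zero_of_mul h2),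
      right_ne_zero_of_mul (right_ne_zero_of_mul h2)⟩
  rw [hθ e he b₀ (mul_ne_zero h1.2 hu0) v]
  refine forall_congr' fun b => ?_
  have h3 : (fun z => (H b (e.symm z) * u (e.symm z)) / (H b₀ (e.symm z) * u (e.symm z)))
      =ᶠ[𝓝 (e x)] fun z => S b (e.symm z) / S b₀ (e.symm z) := by
    refine (symm_tendsto he).eventually (p := fun y => (H b y * u y) / (H b₀ y * u y) =
      S b y / S b₀ y) ?_
    filter_upwards [hc, h.isOpen_off.mem_nhds hx, hu.continuousAt.eventually_ne hu0,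
      (holV_prodg hL).continuousAt.eventually_ne h1.1] with y h4 h5 h6 h7
    obtain ⟨h8, h9⟩ := h4 h5
    rw [h9 b, h9 b₀, mul_div_mul_left _ _ h8, mul_div_mul_left _ _ h7, mul_div_mul_right _ _ h6]
  rw [h3.fderiv_eq]

theorem ne_of_pos (h : IsSys n eqn T) (hk : ∀ D, k D ≠ 0 → D ∈ T)
    (hL : SysLoc (n := n) eqn m k S x g a H) {u : X → ℂ} {Λ : D.FormM n X} {ρ : X → ℝ}
    (hA : LocAt m Λ ρ x g a (fun b z => H b z * u z)) (hx : x ∈ off eqn T) (hρ : 0 < ρ x) :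
    ∃ b, S b x ≠ 0 := by
  obtain ⟨c, hc⟩ := sysLoc_off h hk hL
  obtain ⟨hcx, hSx⟩ := hc.self_of_nhds hx
  obtain ⟨ψ, -, hψ⟩ := hA.loc
  have h1 := hψ.self_of_nhds.2
  rw [h1] at hρ
  have h2 : ‖∏ i, g i x ^ a i‖ ^ 2 ≠ 0 := fun h0 => by
    rw [h0, zero_mul, zero_mul] at hρ; exact lt_irrefl _ hρ
  have h3 : ∑ b, ‖H b x * u x‖ ^ 2 ≠ 0 := fun h0 => by
    rw [h0, mul_zero, zero_mul] at hρ; exact lt_irrefl _ hρ
  obtain ⟨b, -, hb⟩ := Finset.exists_ne_zero_of_sum_ne_zero h3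
  refine ⟨b, ?_⟩
  rw [hSx b]
  refine mul_ne_zero hcx (mul_ne_zero ?_ ?_)
  · intro h0; rw [h0] at h2; simp at h2
  · intro h0; rw [h0] at hb; simp at hb

end off

theorem degAt_mono' {n ν ν' : ℕ} {X : Type} [TopologicalSpace X] [ChartedSpace (Cm n) X] {N : ℕ}
    {H : Fin N → X → ℂ} {g : X → ℂ} {β : D.FormM n X} {z : X} (hν : ν ≤ ν')
    (h : H167.DegAt n ν H g β z) : H167.DegAt n ν' H g β z := by
  rcases h with h | ⟨K, h1, h2⟩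
  · exact Or.inl h
  · exact Or.inr ⟨K, h1.trans (Nat.add_le_add_right hν _), h2⟩

theorem degAt_mul' {n N ν : ℕ} {X : Type} [TopologicalSpace X] [ChartedSpace (Cm n) X]
    [IsManifold 𝓘(ℂ, Cm n) ω X] {H : Fin N → X → ℂ} {u : X → ℂ} {z : X}
    (hH : ∀ b, HolV (Cm n) (H b) z) (hu : HolV (Cm n) u z) {g : X → ℂ} {β : D.FormM n X}
    (h : H167.DegAt n ν H g β z) : H167.DegAt n ν (fun b z => H b z * u z) g β z :=
  GM.degAt_mul hH hu h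

section data

variable {n : ℕ} {X : Type} [TopologicalSpace X] [T2Space X] [CompactSpace X] [ConnectedSpace X]
  [ChartedSpace (Cm n) X] [IsManifold 𝓘(ℂ, Cm n) ω X] {κ : Type}
  {eqn : κ → X → (X → ℂ) → Prop} {T : Finset κ} {m N : ℕ} {k : κ → ℕ} {S : Fin N → X → ℂ}

/-- the data used in the proof -/
structure SysDat (n : ℕ) {X : Type} [TopologicalSpace X] [T2Space X] [CompactSpace X]
    [ChartedSpace (Cm n) X] [IsManifold 𝓘(ℂ, Cm n) ω X] {κ : Type}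
    (eqn : κ → X → (X → ℂ) → Prop) (T : Finset κ) (m : ℕ) {N : ℕ} (S : Fin N → X → ℂ)
    (χ Λ : D.FormM n X) (ρ : X → ℝ) (β : D.FormM n X) (C : ℝ) (θ : D.FormM n X) (ν : ℕ) (C₁ : ℝ)
    (R : Set X) : Prop where
  C0 : 0 ≤ C
  smooth : SmoothFn (n := n) ρ
  nonneg : ∀ x, 0 ≤ ρ x
  closed : IsClosedForm θ
  psd : ∀ e x, At e x → (θ e (e x)).PosSemidef
  curv : ∀ δ : ℝ, 0 < δ → ∀ e x, At e x → (Λ e (e x) + (((m : ℝ)⁻¹ : ℝ) : ℂ) •
      hess (fun y => Real.log (ρ y + δ)) e (e x) +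
      ((C * (δ / (ρ x + δ)) : ℝ) : ℂ) • χ e (e x)).PosSemidef
  growth : ∀ s : ℝ, 1 ≤ s → mixX (addF β s θ) Λ ≤ C₁ * s ^ ν / s
  op : IsOpen R
  de : Dense R
  good : ∀ x ∈ R, x ∈ off eqn T ∧ 0 < ρ x ∧ (∃ b, S b x ≠ 0) ∧
    ∀ e, At e x → (β e (e x)).PosDef ∧ (θ e (e x)).rank = ν
  ker : ∀ e x, At e x → x ∈ off eqn T → ∀ b₀, S b₀ x ≠ 0 → ∀ v : Cm n,
    (∀ j, ∑ i, v i * θ e (e x) i j = 0) ↔
      ∀ b, fderiv ℂ (fun z => S b (e.symm z) / S b₀ (e.symm z)) (e x) v = 0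

theorem exists_sysDat (hform : FormPartG) (hgr : GrowthPartG) {χ : D.FormM n X}
    (hχ : IsKahler χ) (h : IsSys n eqn T) (hm : 0 < m) (hk : ∀ D, k D ≠ 0 → D ∈ T)
    (hS : ∀ b, J.IsSection (Cm n) eqn m k (S b)) {Λ : D.FormM n X} (hΛ : IsClosedForm Λ)
    {ρ : X → ℝ}
    (hloc : ∀ x (r : ℕ) (g : Fin r → X → ℂ) (a : Fin r → ℕ) (H : Fin N → X → ℂ),
      SysLoc (n := n) eqn m k S x g a H → ∃ u : X → ℂ, J.HolAt (Cm n) u x ∧ u x ≠ 0 ∧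
        LocAt m Λ ρ x g a (fun b z => H b z * u z))
    {ν : ℕ} {β : D.FormM n X} (hβ : H167.IsSemiKahler β)
    (hgood : ∀ x, ∃ (r : ℕ) (g : Fin r → X → ℂ) (a : Fin r → ℕ) (H : Fin N → X → ℂ),
      SysLoc (n := n) eqn m k S x g a H ∧ ∀ᶠ z in 𝓝 x, ∀ i, g i z = 0 → H167.DegAt n ν H (g i) β z)
    (hν : ∃ (x : X) (b₀ : Fin N) (c : Fin ν → Fin N), x ∈ off eqn T ∧ S b₀ x ≠ 0 ∧
      Function.Surjective fun (ξ : Cm n) (b : Fin ν) =>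
        J.dif (Cm n) (fun z => S (c b) z / S b₀ z) x ξ) :
    ∃ (C : ℝ) (θ : D.FormM n X) (ν' : ℕ) (C₁ : ℝ) (R : Set X),
      SysDat n eqn T m S χ Λ ρ β C θ ν' C₁ R := by
  have hex : ∀ x, ∃ (r N' : ℕ) (g : Fin r → X → ℂ) (a : Fin r → ℕ) (H : Fin N' → X → ℂ),
      LocAt m Λ ρ x g a H := by
    intro x
    obtain ⟨r, g, a, H, h1, -⟩ := hgood x
    obtain ⟨u, -, -, h2⟩ := hloc x r g a H h1
    exact ⟨r, N, g, a, _, h2⟩
  obtain ⟨C, θ, hC, hρ, hρ0, hρd, hθ, hθ0, hcurv, hloc'⟩ := hform n X χ hχ m hm Λ hΛ ρ hex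
  have hρc : Continuous ρ := INT.SmoothFn.continuous hρ
  have hker : ∀ e x, At e x → x ∈ off eqn T → ∀ b₀, S b₀ x ≠ 0 → ∀ v : Cm n,
      (∀ j, ∑ i, v i * θ e (e x) i j = 0) ↔
        ∀ b, fderiv ℂ (fun z => S b (e.symm z) / S b₀ (e.symm z)) (e x) v = 0 := by
    intro e x he hx b₀ h0 v
    obtain ⟨r, g, a, H, h1, -⟩ := hgood x
    obtain ⟨u, hu, hu0, h2⟩ := hloc x r g a H h1
    exact ker_of h hk h1 hu hu0 (fun e he b₀ hb₀ v => (hloc' x r N g a _ h2).2 e he b₀ hb₀ v)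
      he hx h0 v
  have hpos : Dense ({x | x ∈ off eqn T} ∩ {x | 0 < ρ x}) :=
    h.dense_off.inter_of_isOpen_left hρd h.isOpen_off
  have hP0 : Dense {x | x ∈ off eqn T ∧ ∃ i, S i x ≠ 0} := by
    refine hpos.mono ?_
    rintro x ⟨hx, hx'⟩
    obtain ⟨r, g, a, H, h1, -⟩ := hgood x
    obtain ⟨u, hu, hu0, h2⟩ := hloc x r g a H h1
    exact ⟨hx, ne_of_pos h hk h1 h2 hx hx'⟩
  obtain ⟨ν', R₀, hmax, hR₀o, hR₀d, hR₀, hle⟩ := coreG h hk hS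
    (fun e x he i j => (hθ.smooth e x he i j).continuousAt) hP0 hker
  have hνν' : ν ≤ ν' := by
    obtain ⟨x, b₀, c, hx, h0, hc⟩ := hν
    exact hle ν x b₀ c hx h0 (JB.linearIndependent_of_surjective hc)
  have hβc : IsClosedForm β := GM.IsSemiKahler.isClosedForm hβ
  obtain ⟨C₁, hC₁⟩ := hgr n X χ hχ m hm Λ hΛ ρ hρ hρ0 θ β hθ hβc hθ0 hβ.posSemidef ν' hmax (by
    intro x
    obtain ⟨r, g, a, H, h1, h3⟩ := hgood x
    obtain ⟨u, hu, hu0, h2⟩ := hloc x r g a H h1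
    refine ⟨r, N, g, a, _, h2, ?_⟩
    have h5 : ∀ᶠ z in 𝓝 x, ∀ b, HolV (Cm n) (H b) z := by
      rw [eventually_all]
      exact fun b => HolV.eventually (h1.holH b)
    filter_upwards [(hloc' x r N g a _ h2).1, h3, h5, HolV.eventually hu] with z h6 h7 h8 h9
    exact ⟨h6, fun i hi => degAt_mul' h8 h9 (degAt_mono' hνν' (h7 i hi))⟩)
  refine ⟨C, θ, ν', C₁, R₀ ∩ {x : X | ∃ e, At e x ∧ (β e (e x)).PosDef} ∩ {x | 0 < ρ x}, ?_⟩
  have hβo := GM.isOpen_posDef hβc hβ.posSemidef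
  have hρo : IsOpen {x | 0 < ρ x} := isOpen_lt continuous_const hρc
  refine ⟨hC, hρ, hρ0, hθ, hθ0, hcurv, hC₁, (hR₀o.inter hβo).inter hρo,
    (hR₀d.inter_of_isOpen_left hβ.dense hR₀o).inter_of_isOpen_left hρd (hR₀o.inter hβo), ?_, hker⟩
  rintro x ⟨⟨hx1, e', he', hp'⟩, hx3⟩
  obtain ⟨h1, h2, h3⟩ := hR₀ x hx1
  exact ⟨h1, hx3, h2, fun e he => ⟨GM.posDef_chart hβc.form hβ.posSemidef he' he hp', h3 e he⟩⟩

end data

end Vale.Agent.P281.H167.KG
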