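import Vale.Agent.P281.H167.KG.Iface
import Vale.Agent.P281.H342.KD.ME1

/-! P281, theorem KG: systems of divisors, local form of sections. -/

open scoped Manifold ContDiff Topology ComplexOrder
open Set Filter Vale.Agent.P281.J Vale.Agent.P272.K Vale.Agent.P272.K.AMP Vale.Agent.P299
open Vale.Agent.P272.K.INT (IsClosedForm)

noncomputable section

namespace Vale.Agent.P281.H167.KG

open Vale.Agent.P281.H713 Vale.Agent.P281.H713.SA Vale.Agent.P281.H716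
open Vale.Agent.P281.H716.IsSys
open Vale.Agent.P281.H167.GM (mixX addF)

/-- Near `x`: `S b * ∏ e_D ^ k(D) = (∏ g_i ^ a_i) H_b (dz_1 ∧ ... ∧ dz_n) ^ m`. -/
structure SysLoc {n : ℕ} {X : Type} [TopologicalSpace X] [ChartedSpace (Cm n) X] {κ : Type}
    (eqn : κ → X → (X → ℂ) → Prop) (m : ℕ) (k : κ → ℕ) {N : ℕ} (S : Fin N → X → ℂ) (x : X)
    {r : ℕ} (g : Fin r → X → ℂ) (a : Fin r → ℕ) (H : Fin N → X → ℂ) : Prop where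
  holg : ∀ i, HolAt (Cm n) (g i) x ∧ dif (Cm n) (g i) x ≠ 0
  holH : ∀ b, HolAt (Cm n) (H b) x
  ne : ∃ b, H b x ≠ 0
  loc : ∃ (T : Finset κ) (e : κ → X → ℂ), (∀ D, k D ≠ 0 → D ∈ T) ∧ (∀ D ∈ T, eqn D x (e D)) ∧
    ∀ᶠ z in 𝓝 x, ∏ D ∈ T, e D z ^ k D ≠ 0 → ∀ b,
      S b z * ∏ D ∈ T, e D z ^ k D = (∏ i, g i z ^ a i) * H b z *
        ContinuousLinearMap.det (mfderiv 𝓘(ℂ, Cm n) 𝓘(ℂ, Cm n) (chartAt (Cm n) x) z :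
          Cm n →L[ℂ] Cm n) ^ m

/-- **Block KG-ME**: the metric defined by the sections `S b`, in the local forms; the norm of a
section of `m₁ (K + Δ)`. -/
def MetPartG : Prop := ∀ (n : ℕ) (X : Type) [TopologicalSpace X] [T2Space X] [CompactSpace X]
  [ConnectedSpace X] [ChartedSpace (Cm n) X] [IsManifold 𝓘(ℂ, Cm n) ω X] (κ : Type)
  (eqn : κ → X → (X → ℂ) → Prop) (T : Finset κ) (h : IsSys n eqn T)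
  (φ : Chart n X → Cm n → ℝ) (_ : IsCanonicalMetric φ) (Δ : κ → ℝ) (m N : ℕ) (_ : 0 < m)
  (k : κ → ℕ) (_ : ∀ D, k D ≠ 0 → D ∈ T) (_ : ∀ D, (k D : ℝ) = m * Δ D)
  (M : ℕ) (Dv : Fin M → κ) (_ : Function.Injective Dv) (_ : ∀ D, D ∈ T ↔ ∃ i, Dv i = D)
  (hDv : ∀ i, Dv i ∈ T) (ψ : Fin M → X → X → ℝ)
  (_ : ∀ i, Vale.Agent.P285.TM.Wt (H342.KD.OD h (Dv i) (hDv i)) (ψ i))
  (S : Fin N → X → ℂ) (_ : ∀ b, IsSection (Cm n) eqn m k (S b))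
  (_ : ∀ x, ∃ (r : ℕ) (g : Fin r → X → ℂ) (a : Fin r → ℕ) (H : Fin N → X → ℂ),
    SysLoc (n := n) eqn m k S x g a H),
  IsClosedForm (KD.clsK φ (fun i => Δ (Dv i))
    (fun i => Vale.Agent.P285.TM.cv (H342.KD.OD h (Dv i) (hDv i)) (ψ i))) ∧
  (∃ ρ : X → ℝ, ∀ x (r : ℕ) (g : Fin r → X → ℂ) (a : Fin r → ℕ) (H : Fin N → X → ℂ),
    SysLoc (n := n) eqn m k S x g a H → ∃ u : X → ℂ, HolAt (Cm n) u x ∧ u x ≠ 0 ∧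
      LocAt m (KD.clsK φ (fun i => Δ (Dv i))
        (fun i => Vale.Agent.P285.TM.cv (H342.KD.OD h (Dv i) (hDv i)) (ψ i)))
        ρ x g a (fun b z => H b z * u z)) ∧
  ∀ (m₁ : ℕ) (k₁ : κ → ℕ) (s₀ s₁ : X → ℂ), (∀ D, (k₁ D : ℝ) = m₁ * Δ D) →
    IsSection (Cm n) eqn m₁ k₁ s₀ → IsSection (Cm n) eqn m₁ k₁ s₁ →
    ∃ N₀ N₁ : X → ℝ, SmoothFn (n := n) N₀ ∧ SmoothFn (n := n) N₁ ∧
      (∀ x, ∃ (e : Chart n X) (ψ' : Cm n → ℝ) (c₀ c₁ : Cm n → ℂ), At e x ∧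
        ContDiffAt ℝ ∞ ψ' (e x) ∧ AnalyticAt ℂ c₀ (e x) ∧ AnalyticAt ℂ c₁ (e x) ∧
        cHess ψ' (e x) = (m₁ : ℂ) • KD.clsK φ (fun i => Δ (Dv i))
          (fun i => Vale.Agent.P285.TM.cv (H342.KD.OD h (Dv i) (hDv i)) (ψ i)) e (e x) ∧
        ∀ᶠ z in 𝓝 (e x), N₀ (e.symm z) = ‖c₀ z‖ ^ 2 * Real.exp (-ψ' z) ∧
          N₁ (e.symm z) = ‖c₁ z‖ ^ 2 * Real.exp (-ψ' z)) ∧
      ∀ x ∈ off eqn T, (0 < N₀ x ↔ s₀ x ≠ 0) ∧ (0 < N₁ x ↔ s₁ x ≠ 0) ∧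
        (s₀ x ≠ 0 → s₁ x ≠ 0 → Real.log (N₁ x) - Real.log (N₀ x) =
          Real.log (‖s₁ x‖ ^ 2) - Real.log (‖s₀ x‖ ^ 2))

end Vale.Agent.P281.H167.KG
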