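import Vale.Agent.P281.H716.MainA
import Vale.Agent.P281.H167.KG.SysDefs
import Vale.Agent.P281.H167.GM.M7

/-! P281, theorem KG: the hypotheses on `X` and on the fibre, in terms of the systems of divisors. -/

open scoped Manifold ContDiff Topology ComplexOrder
open Set Filter Vale.Agent.P281 Vale.Agent.P272.K Vale.Agent.P299
open Vale.Agent.P272.K.INT (IsClosedForm)

noncomputable section

set_option linter.all false

namespace Vale.Agent.P281.H167.KG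

open Vale.Agent.P281.MF Vale.Agent.P281.ISO
open Vale.Agent.P281.H713 Vale.Agent.P281.H713.SA Vale.Agent.P281.H716
open Vale.Agent.P281.H716.IsSys

variable {n d m N ν : ℕ} {X F : Type} [TopologicalSpace X] [ChartedSpace (Cm n) X]
  [IsManifold 𝓘(ℂ, Cm n) ω X] [TopologicalSpace F] [ChartedSpace (Cm d) F]
  [IsManifold 𝓘(ℂ, Cm d) ω F] {k : Set X → ℕ} {S : Fin N → X → ℂ}

theorem sysLoc_id {β : D.FormM n X} (h : H167.IsGoodFixP n n m ν k (id : X → X) S β) (x : X) :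
    ∃ (r : ℕ) (g : Fin r → X → ℂ) (a : Fin r → ℕ) (H : Fin N → X → ℂ),
      SysLoc (n := n) (eqL n) m k S x g a H ∧ ∀ᶠ z in 𝓝 x, ∀ i, g i z = 0 → H167.DegAt n ν H (g i) β z := by
  obtain ⟨T, e, r, g, a, H, hT, he, hg, hH, hne, hev⟩ := h x
  exact ⟨r, g, a, H, ⟨hg, hH, hne, T, e, hT, he, hev.mono fun z hz => hz.1⟩,
    hev.mono fun z hz => hz.2⟩

theorem sysLoc_fib {ι : F → X} {G : F → ℂ}
    (hG : ∀ p₀, ∃ η : F → ℂ, HolV (Cm d) η p₀ ∧ η p₀ ≠ 0 ∧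
      ∀ᶠ t in 𝓝 p₀, jac (Cm n) (chartAt (Cm n) (ι p₀)) (ι t) * G t =
        η t * jac (Cm d) (chartAt (Cm d) p₀) t)
    {β : D.FormM d F} (h : H167.IsGoodFixP n d m ν k ι S β) (x : F) :
    ∃ (r : ℕ) (g : Fin r → F → ℂ) (a : Fin r → ℕ) (H : Fin N → F → ℂ),
      SysLoc (n := d) (eqF n ι) m k (fun b t => S b (ι t) * G t ^ m) x g a H ∧
        ∀ᶠ z in 𝓝 x, ∀ i, g i z = 0 → H167.DegAt d ν H (g i) β z := by
  obtain ⟨T, e, r, g, a, H, hT, he, hg, hH, ⟨b₀, hne⟩, hev⟩ := h x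
  obtain ⟨η, hη, hη0, hηe⟩ := hG x
  have h5 : ∀ᶠ z in 𝓝 x, ∀ b, HolV (Cm d) (H b) z := by
    rw [eventually_all]
    exact fun b => HolV.eventually (hH b)
  refine ⟨r, g, a, fun b t => H b t * η t ^ m, ⟨hg, fun b => HolV.mul (hH b) (HolV.pow hη m),
    ⟨b₀, mul_ne_zero hne (pow_ne_zero _ hη0)⟩, T, fun D t => e D (ι t), hT,
    fun D hD => ⟨e D, he D hD, Eventually.of_forall fun _ => rfl⟩, ?_⟩, ?_⟩
  · filter_upwards [hev, hηe] with z hz h6 h7 b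
    have h8 : S b (ι z) * ∏ D ∈ T, e D (ι z) ^ k D = (∏ i, g i z ^ a i) * H b z *
      jac (Cm n) (chartAt (Cm n) (ι x)) (ι z) ^ m := hz.1 h7 b
    show S b (ι z) * G z ^ m * ∏ D ∈ T, e D (ι z) ^ k D =
      (∏ i, g i z ^ a i) * (H b z * η z ^ m) * jac (Cm d) (chartAt (Cm d) x) z ^ m
    have h9 : S b (ι z) * G z ^ m * ∏ D ∈ T, e D (ι z) ^ k D =
      (∏ i, g i z ^ a i) * H b z * (jac (Cm n) (chartAt (Cm n) (ι x)) (ι z) * G z) ^ m := by
      rw [mul_pow]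
      linear_combination G z ^ m * h8
    rw [h9, h6]
    ring
  · filter_upwards [hev, h5, HolV.eventually (HolV.pow hη m)] with z hz h7 h8 i hi
    exact GM.degAt_mul h7 h8 (hz.2 i hi)

theorem flatSec_mul {κ : Type} {eqn : κ → F → (F → ℂ) → Prop} {Δ : κ → ℝ} {P : Fin N → F → ℂ}
    {G : F → ℂ} (hG : ∀ t, G t ≠ 0) {R : Set F}
    (h : FlatSec d eqn Δ (fun a t => P a t * G t ^ m) R) : FlatSec d eqn Δ P R := by
  intro x hx m' k' hk' s₀ s₁ hs₀ hs₁ h0 i₀ hi₀ v hv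
  refine h x hx m' k' hk' s₀ s₁ hs₀ hs₁ h0 i₀ (mul_ne_zero hi₀ (pow_ne_zero _ (hG x))) v fun i => ?_
  have h1 : (fun w => P i w * G w ^ m / (P i₀ w * G w ^ m)) = fun w => P i w / P i₀ w :=
    funext fun w => mul_div_mul_right _ _ (pow_ne_zero _ (hG w))
  rw [h1]
  exact hv i

end Vale.Agent.P281.H167.KG
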