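import Vale.Agent.P281.H167.KG.Data
import Vale.Agent.P281.H716.MainB
import Vale.Agent.P272.K.AMP.Main.Step0
import Vale.Agent.P281.H368.GM.K3

/-! P281, theorem KG: the quotients of sections on the fibre. -/

open scoped Manifold ContDiff Topology ComplexOrder
open Set Filter Vale.Agent.P281 Vale.Agent.P272.K Vale.Agent.P299
open Vale.Agent.P272.K.INT (IsClosedForm)
open Vale.Agent.P272.K.AMP (hess)
open Vale.Agent.P299.H882 (J xi qf)

noncomputable section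

set_option linter.all false

namespace Vale.Agent.P281.H167.KG

open Vale.Agent.P281.MF Vale.Agent.P281.ISO
open Vale.Agent.P281.H713 Vale.Agent.P281.H713.SA Vale.Agent.P281.H716
open Vale.Agent.P281.H949.SA Vale.Agent.P281.H716.IsSys
open Vale.Agent.P281.H167.GM (mixX addF)
open Vale.Agent.P281.H368.GM (dd dh)

/-- **Block KG-N**: the zero set of `ρ` has measure zero. -/
def NullPart : Prop := ∀ (n : ℕ) (X : Type) [TopologicalSpace X] [T2Space X] [CompactSpace X]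
  [ConnectedSpace X] [ChartedSpace (Cm n) X] [IsManifold 𝓘(ℂ, Cm n) ω X] (m : ℕ)
  (Λ : D.FormM n X) (ρ : X → ℝ)
  (_ : ∀ x, ∃ (r N : ℕ) (g : Fin r → X → ℂ) (a : Fin r → ℕ) (H : Fin N → X → ℂ),
    LocAt m Λ ρ x g a H),
  ∀ e ∈ atlas (Cm n) X, MeasureTheory.volume {z | z ∈ e.target ∧ ρ (e.symm z) = 0} = 0

section

variable {n : ℕ} {X : Type} [TopologicalSpace X] [ChartedSpace (Cm n) X]
  [IsManifold 𝓘(ℂ, Cm n) ω X] {κ : Type} {eqn : κ → X → (X → ℂ) → Prop} {T : Finset κ}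

theorem add_sec (h : IsSys n eqn T) {k : κ → ℕ} (hk : ∀ D, k D ≠ 0 → D ∈ T) {m : ℕ}
    {s s' : X → ℂ} (hs : J.IsSection (Cm n) eqn m k s) (hs' : J.IsSection (Cm n) eqn m k s')
    (c : ℂ) : J.IsSection (Cm n) eqn m k (fun z => s z + c * s' z) := by
  refine h.of_rep hk fun x => ?_
  obtain ⟨a, ha, hev⟩ := h.rep' hk hs x
  obtain ⟨a', ha', hev'⟩ := h.rep' hk hs' x
  refine ⟨fun z => a z + c * a' z, ?_, ?_⟩
  · have h1 : HolV (Cm n) (fun z => c * a' z) x := (HolV.const c x).mul ha'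
    exact HolV.add ha h1
  · filter_upwards [hev, hev'] with z h1 h2 h3
    linear_combination h1 h3 + c * h2 h3

/-- `∂ log |q|² = dq / q` -/
theorem xi_log {e : Chart n X} {x : X} (he : At e x) {q : X → ℂ} (hq : HolV (Cm n) q x)
    (h0 : q x ≠ 0) {u : X → ℝ} {l : ℝ} (hu : ∀ᶠ y in 𝓝 x, u y = l * Real.log (‖q y‖ ^ 2))
    (v : Cm n) : ∑ i, xi u e (e x) i * v i =
      l * (fderiv ℂ (fun z => q (e.symm z)) (e x) v / q x) := by
  have hq' : ContDiffAt ℂ ω (fun z => q (e.symm z)) (e x) := IsSys.holV_chart he hq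
  have hq0 : q (e.symm (e x)) ≠ 0 := by rw [he.left_inv]; exact h0
  have hE : DifferentiableAt ℝ (fun z => ‖q (e.symm z)‖ ^ 2) (e x) :=
    ((hq'.differentiableAt (by simp)).restrictScalars ℝ).norm_sq ℝ
  have hE0 : ‖q (e.symm (e x))‖ ^ 2 ≠ 0 := pow_ne_zero 2 (norm_ne_zero_iff.2 hq0)
  have h1 : ∀ i, xi u e (e x) i = l * dd (fun z => Real.log (‖q (e.symm z)‖ ^ 2)) (e x) i := by
    intro i
    have h2 : (fun y => ((u (e.symm y) : ℝ) : ℂ)) =ᶠ[𝓝 (e x)]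
        fun y => (l : ℂ) * ((Real.log (‖q (e.symm y)‖ ^ 2) : ℝ) : ℂ) := by
      filter_upwards [(symm_tendsto he).eventually hu] with y hy
      rw [hy]
      push_cast
      rfl
    show dz i (fun y => ((u (e.symm y) : ℝ) : ℂ)) (e x) = _
    rw [C2.dz_congr i h2, C2.dz_const_mul]
    · rfl
    · exact C2.differentiableAt_ofReal (hE.log hE0)
  have h3 := H368.GM.dd_log (E := fun z => ‖q (e.symm z)‖ ^ 2) (z := e x) hE hE0
  have h4 := H368.GM.dd_normSq hq'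
  have h5 : ∑ i, xi u e (e x) i * v i = l * (((‖q (e.symm (e x))‖ ^ 2 : ℝ) : ℂ)⁻¹ *
      ((starRingEnd ℂ (q (e.symm (e x)))) * ∑ i, v i * dh (fun z => q (e.symm z)) (e x) i)) := by
    rw [Finset.mul_sum, Finset.mul_sum, Finset.mul_sum]
    refine Finset.sum_congr rfl fun i _ => ?_
    rw [h1, h3, Pi.smul_apply, h4, Pi.smul_apply, smul_eq_mul, smul_eq_mul]
    ring
  rw [h5, H368.GM.dh_apply, he.left_inv, ← Complex.normSq_eq_norm_sq,
    Complex.normSq_eq_conj_mul_self, mul_inv]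
  have h6 : (starRingEnd ℂ) (q x) ≠ 0 := by rwa [Ne, map_eq_zero]
  field_simp

end

section fib

variable {d : ℕ} {F : Type} [TopologicalSpace F] [T2Space F] [CompactSpace F] [ConnectedSpace F]
  [ChartedSpace (Cm d) F] [IsManifold 𝓘(ℂ, Cm d) ω F] {κ : Type}
  {eqn : κ → F → (F → ℂ) → Prop} {T : Finset κ}

theorem exists_enum (T : Finset κ) : ∃ (M : ℕ) (Dv : Fin M → κ), Function.Injective Dv ∧
    ∀ D, D ∈ T ↔ ∃ i, Dv i = D := by
  classical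
  refine ⟨T.card, fun i => (T.equivFin.symm i : κ),
    fun i j hij => T.equivFin.symm.injective (Subtype.ext hij), fun D => ⟨fun hD => ?_, ?_⟩⟩
  · refine ⟨T.equivFin ⟨D, hD⟩, ?_⟩
    show ((T.equivFin.symm (T.equivFin ⟨D, hD⟩) : T) : κ) = D
    rw [Equiv.symm_apply_apply]
  · rintro ⟨i, rfl⟩
    exact (T.equivFin.symm i).2

theorem exists_flatSecG (hform : FormPartG) (hgr : GrowthPartG) (hmet : MetPartG)
    (hnull : NullPart) (hcore : KD.CorePartF) {χ : D.FormM d F} (hχ : IsKahler χ)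
    (h : IsSys d eqn T) {Δ : κ → ℝ} (hTΔ : ∀ D, Δ D ≠ 0 → D ∈ T) {m N : ℕ} (hm : 0 < m)
    {k : κ → ℕ} (hk : ∀ D, (k D : ℝ) = m * Δ D) {S : Fin N → F → ℂ}
    (hS : ∀ b, J.IsSection (Cm d) eqn m k (S b)) {ν : ℕ} {β : D.FormM d F}
    (hβ : H167.IsSemiKahler β)
    (hgood : ∀ x, ∃ (r : ℕ) (g : Fin r → F → ℂ) (a : Fin r → ℕ) (H : Fin N → F → ℂ),
      SysLoc (n := d) eqn m k S x g a H ∧ ∀ᶠ z in 𝓝 x, ∀ i, g i z = 0 → H167.DegAt d ν H (g i) β z)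
    (hν : ∃ (x : F) (b₀ : Fin N) (c : Fin ν → Fin N), x ∈ off eqn T ∧ S b₀ x ≠ 0 ∧
      Function.Surjective fun (ξ : Cm d) (b : Fin ν) =>
        J.dif (Cm d) (fun z => S (c b) z / S b₀ z) x ξ) :
    ∃ R : Set F, Dense R ∧ (∀ x ∈ R, ∃ a, S a x ≠ 0) ∧ FlatSec d eqn Δ S R := by
  have hsupp : ∀ {m : ℕ} {k : κ → ℕ}, (∀ D, (k D : ℝ) = m * Δ D) → ∀ D, k D ≠ 0 → D ∈ T := by
    intro m k hk D hD
    refine hTΔ D fun h0 => hD ?_
    have h1 := hk D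
    rw [h0, mul_zero] at h1
    exact_mod_cast h1
  obtain ⟨M, Dv, hinj, hDvT⟩ := exists_enum T
  have hDv : ∀ i, Dv i ∈ T := fun i => (hDvT _).2 ⟨i, rfl⟩
  choose ψ hψ hle using fun i => H342.KD.exists_wt_le h (hDv i)
  have hφ := AMP.Main.isCanonical_logdet hχ.toIsHermitian
  have hex : ∀ x, ∃ (r : ℕ) (g : Fin r → F → ℂ) (a : Fin r → ℕ) (H : Fin N → F → ℂ),
      SysLoc (n := d) eqn m k S x g a H := fun x => by
    obtain ⟨r, g, a, H, h1, -⟩ := hgood x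
    exact ⟨r, g, a, H, h1⟩
  obtain ⟨hΛ, ⟨ρ, hρ⟩, hnrm⟩ := hmet d F κ eqn T h _ hφ Δ m N hm k (hsupp hk) hk M Dv hinj hDvT hDv
    ψ hψ S hS hex
  set Λ : D.FormM d F := KD.clsK (fun e z => Real.log (χ e z).det.re) (fun i => Δ (Dv i))
    (fun i => Vale.Agent.P285.TM.cv (H342.KD.OD h (Dv i) (hDv i)) (ψ i)) with hΛd
  obtain ⟨C, θ, ν', C₁, R, hD⟩ := exists_sysDat hform hgr hχ h hm (hsupp hk) hS hΛ hρ hβ hgood hν
  have hlocAt : ∀ x, ∃ (r N : ℕ) (g : Fin r → F → ℂ) (a : Fin r → ℕ) (H : Fin N → F → ℂ),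
      LocAt m Λ ρ x g a H := by
    intro x
    obtain ⟨r, g, a, H, h1⟩ := hex x
    obtain ⟨u, -, -, h2⟩ := hρ x r g a H h1
    exact ⟨r, N, g, a, _, h2⟩
  refine ⟨R, hD.de, fun x hx => (hD.good x hx).2.2.1, ?_⟩
  intro x hx m' k' hk' s₀ s₁ hs₀ hs₁ h0 i₀ hi₀ v hv
  obtain ⟨hxo, hρx, -, hgoodx⟩ := hD.good x hx
  have he : At (chartAt (Cm d) x) x := ⟨chart_mem_atlas _ _, mem_chart_source _ _⟩
  set e : Chart d F := chartAt (Cm d) x with hed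
  -- we may suppose `s₁ x ≠ 0`
  obtain ⟨c, hc⟩ : ∃ c : ℂ, s₁ x + c * s₀ x ≠ 0 := by
    by_cases h1 : s₁ x = 0
    · exact ⟨1, by rw [h1, zero_add, one_mul]; exact h0⟩
    · exact ⟨0, by rw [zero_mul, add_zero]; exact h1⟩
  have hs₂ := add_sec h (hsupp hk') hs₁ hs₀ c
  set s₂ : F → ℂ := fun z => s₁ z + c * s₀ z with hs₂d
  have hs₂0 : s₂ x ≠ 0 := hc
  have hq : HolV (Cm d) (fun w => s₁ w / s₀ w) x := h.holV_ratio (hsupp hk') hs₀ hs₁ hxo h0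
  have hq₂ : HolV (Cm d) (fun w => s₂ w / s₀ w) x := h.holV_ratio (hsupp hk') hs₀ hs₂ hxo h0
  have hev0 : ∀ᶠ w in 𝓝 x, s₀ w ≠ 0 := h.ev_ne (hsupp hk') hs₀ hxo h0
  have hev2 : ∀ᶠ w in 𝓝 x, s₂ w ≠ 0 := h.ev_ne (hsupp hk') hs₂ hxo hs₂0
  obtain ⟨N₀, N₁, hN₀, hN₁, hNl, hNo⟩ := hnrm m' k' s₀ s₂ hk' hs₀ hs₂
  have hker : ∀ j, ∑ i, (De e x v) i * θ e (e x) i j = 0 := by
    refine (hD.ker e x he hxo i₀ hi₀ (De e x v)).2 fun b => ?_
    have h1 := hv b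
    have h2 := dV_eq_fderiv he (h.holV_ratio (hsupp hk) (hS i₀) (hS b) hxo hi₀)
    have h3 := congrArg (fun A : Cm d →L[ℂ] ℂ => A v) h2
    exact h3.symm.trans h1
  have hmain := hcore d F χ hχ Λ hΛ m hm ρ hD.smooth hD.nonneg (hnull d F m Λ ρ hlocAt) C hD.curv θ β
    hD.closed (GM.IsSemiKahler.isClosedForm hβ) hD.psd hβ.posSemidef ν' C₁
    ((eventually_ge_atTop 1).frequently.mono fun s hs => hD.growth s hs) m' N₀ N₁ hN₀ hN₁ hNl e x he
    ((hNo x hxo).1.2 h0) ((hNo x hxo).2.1.2 hs₂0) hρx (hgoodx e he).1 (hgoodx e he).2 (De e x v) hker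
  have hu : ∀ᶠ y in 𝓝 x, (fun y => Real.log (N₁ y) - Real.log (N₀ y)) y =
      1 * Real.log (‖s₂ y / s₀ y‖ ^ 2) := by
    filter_upwards [hev0, hev2, h.isOpen_off.mem_nhds hxo] with y h1 h2 h3
    show Real.log (N₁ y) - Real.log (N₀ y) = _
    rw [(hNo y h3).2.2 h1 h2, norm_div, div_pow, Real.log_div (pow_ne_zero 2 (norm_ne_zero_iff.2 h2))
      (pow_ne_zero 2 (norm_ne_zero_iff.2 h1)), one_mul]
  rw [xi_log he hq₂ (div_ne_zero hs₂0 h0) hu, Complex.ofReal_one, one_mul,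
    div_eq_zero_iff, or_iff_left (div_ne_zero hs₂0 h0)] at hmain
  have h4 : dV (Cm d) (fun w => s₁ w / s₀ w) x = dV (Cm d) (fun w => s₂ w / s₀ w) x := by
    have h5 : (fun w => s₂ w / s₀ w) =ᶠ[𝓝 x] fun w => s₁ w / s₀ w + c := by
      filter_upwards [hev0] with w hw
      simp only [hs₂d]
      field_simp
    rw [dV_congr h5]
    have h6 : dV (Cm d) (fun w => s₁ w / s₀ w + c) x = dV (Cm d) (fun w => s₁ w / s₀ w) x := by
      rw [dV_eq_fderiv he (HolV.add hq (HolV.const c x)), dV_eq_fderiv he hq]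
      congr 1
      exact fderiv_add_const c
    rw [h6]
  rw [h4, dV_eq_fderiv he hq₂]
  exact hmain

end fib

end Vale.Agent.P281.H167.KG
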