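import Vale.Agent.P281.H713.KD.Iface
import Vale.Agent.P281.H167.GM.Defs

/-! P281, theorem KG (pairs `(X, Δ)` with coefficients `< 1` having a good minimal model,
`m (K_X + Δ) = M + N`): the blocks of the proof which are not blocks of theorem KD. -/

open scoped Manifold ContDiff Topology ComplexOrder
open Set Filter Vale.Agent.P281.J Vale.Agent.P272.K Vale.Agent.P272.K.AMP Vale.Agent.P299
open Vale.Agent.P272.K.INT (IsClosedForm)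

noncomputable section

namespace Vale.Agent.P281.H167

/-! ### definitions of the final statement -/

section

variable {X F : Type} [TopologicalSpace X] [TopologicalSpace F]

/-- The map `F → ℙ` with homogeneous coordinates `S b ∘ ι` has rank at least `ν` at some point, not
on the divisors `D` with `k D ≠ 0`. -/
def HasRankP (d ν : ℕ) [ChartedSpace (Cm d) F] (k : Set X → ℕ) (ι : F → X) {N : ℕ}
    (S : Fin N → X → ℂ) : Prop :=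
  ∃ (x : F) (b₀ : Fin N) (c : Fin ν → Fin N), (∀ D, k D ≠ 0 → ι x ∉ D) ∧ S b₀ (ι x) ≠ 0 ∧
    Function.Surjective fun (ξ : Cm d) (b : Fin ν) =>
      dif (Cm d) (fun z => S (c b) (ι z) / S b₀ (ι z)) x ξ

/-- `S b` are sections of `m K_X + ∑ k(D) D`, `ι : F → X` is holomorphic (the identity of `X`, or a
fibre).  Near every point of `F`, `S b ∘ ι = (∏ g_i ^ a_i) H_b` in a frame of `m K_X + ∑ k(D) D`
(`e D` are local equations of the divisors `D`), where the `H_b` have no common zero and the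
hypersurfaces `g_i = 0` of `F` are smooth: the fixed divisor of the `S b ∘ ι` is locally
`∑ a_i {g_i = 0}` and the moving part is generated by the `H_b`.  Moreover each hypersurface `g_i = 0`
is contracted by `([H], β)`, or the map `[H]` has rank less than `ν` on it. -/
def IsGoodFixP (n d m ν : ℕ) [ChartedSpace (Cm n) X] [ChartedSpace (Cm d) F] (k : Set X → ℕ)
    (ι : F → X) {N : ℕ} (S : Fin N → X → ℂ)
    (β : Chart d F → Cm d → Matrix (Fin d) (Fin d) ℂ) : Prop :=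
  ∀ x : F, ∃ (T : Finset (Set X)) (e : Set X → X → ℂ) (r : ℕ) (g : Fin r → F → ℂ)
    (a : Fin r → ℕ) (H : Fin N → F → ℂ),
    (∀ D, k D ≠ 0 → D ∈ T) ∧ (∀ D ∈ T, IsLocalEq (Cm n) D (e D) (ι x)) ∧
    (∀ i, HolAt (Cm d) (g i) x ∧ dif (Cm d) (g i) x ≠ 0) ∧ (∀ b, HolAt (Cm d) (H b) x) ∧
    (∃ b, H b x ≠ 0) ∧ ∀ᶠ z in 𝓝 x, (∏ D ∈ T, e D (ι z) ^ k D ≠ 0 → ∀ b,
      S b (ι z) * ∏ D ∈ T, e D (ι z) ^ k D = (∏ i, g i z ^ a i) * H b z *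
        ContinuousLinearMap.det (mfderiv 𝓘(ℂ, Cm n) 𝓘(ℂ, Cm n) (chartAt (Cm n) (ι x)) (ι z) :
          Cm n →L[ℂ] Cm n) ^ m) ∧
      ∀ i, g i z = 0 → DegAt d ν H (g i) β z

end

namespace KG

open Vale.Agent.P281.H713 Vale.Agent.P281.H713.SA Vale.Agent.P281.H716
open Vale.Agent.P281.H167.GM (mixX addF)

/-- Near `x`: `Λ = i∂∂̄ ψ` and `ρ = |∏ g_i ^ a_i|² (∑ |H_b|²) exp (-m ψ)`, where the `H_b` have no
common zero, and `dg_i ≠ 0`. -/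
structure LocAt {n : ℕ} {X : Type} [TopologicalSpace X] [ChartedSpace (Cm n) X] (m : ℕ)
    (Λ : D.FormM n X) (ρ : X → ℝ) (x : X) {r N : ℕ} (g : Fin r → X → ℂ) (a : Fin r → ℕ)
    (H : Fin N → X → ℂ) : Prop where
  holg : ∀ i, HolAt (Cm n) (g i) x ∧ dif (Cm n) (g i) x ≠ 0
  holH : ∀ b, HolAt (Cm n) (H b) x
  ne : ∃ b, H b x ≠ 0
  loc : ∃ ψ : X → ℝ, (∀ e : Chart n X, At e x → ContDiffAt ℝ ∞ (fun z => ψ (e.symm z)) (e x)) ∧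
    ∀ᶠ y in 𝓝 x, (∀ e : Chart n X, At e y → Λ e (e y) = hess ψ e (e y)) ∧
      ρ y = ‖∏ i, g i y ^ a i‖ ^ 2 * (∑ b, ‖H b y‖ ^ 2) * Real.exp (-m * ψ y)

/-- **Block KG-F**: the form `θ` of the moving part, and the curvature of the metric
`ψ + (1/m) log (ρ + δ)`. -/
def FormPartG : Prop := ∀ (n : ℕ) (X : Type) [TopologicalSpace X] [T2Space X] [CompactSpace X]
  [ConnectedSpace X] [ChartedSpace (Cm n) X] [IsManifold 𝓘(ℂ, Cm n) ω X]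
  (χ : D.FormM n X) (_ : IsKahler χ) (m : ℕ) (_ : 0 < m) (Λ : D.FormM n X) (_ : IsClosedForm Λ)
  (ρ : X → ℝ)
  (_ : ∀ x, ∃ (r N : ℕ) (g : Fin r → X → ℂ) (a : Fin r → ℕ) (H : Fin N → X → ℂ),
    LocAt m Λ ρ x g a H),
  ∃ (C : ℝ) (θ : D.FormM n X), 0 ≤ C ∧ SmoothFn (n := n) ρ ∧ (∀ x, 0 ≤ ρ x) ∧
    Dense {x | 0 < ρ x} ∧ IsClosedForm θ ∧ (∀ e x, At e x → (θ e (e x)).PosSemidef) ∧
    (∀ δ : ℝ, 0 < δ → ∀ e x, At e x → (Λ e (e x) + (((m : ℝ)⁻¹ : ℝ) : ℂ) •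
      hess (fun y => Real.log (ρ y + δ)) e (e x) +
      ((C * (δ / (ρ x + δ)) : ℝ) : ℂ) • χ e (e x)).PosSemidef) ∧
    ∀ x (r N : ℕ) (g : Fin r → X → ℂ) (a : Fin r → ℕ) (H : Fin N → X → ℂ), LocAt m Λ ρ x g a H →
      (∀ᶠ y in 𝓝 x, ∀ e, At e y → θ e (e y) = (((m : ℝ)⁻¹ : ℝ) : ℂ) •
        hess (fun y => Real.log (∑ b, ‖H b y‖ ^ 2)) e (e y)) ∧
      ∀ e, At e x → ∀ b₀, H b₀ x ≠ 0 → ∀ v : Cm n,
        (∀ j, ∑ i, v i * θ e (e x) i j = 0) ↔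
          ∀ b, fderiv ℂ (fun z => H b (e.symm z) / H b₀ (e.symm z)) (e x) v = 0

/-- **Block KG-GR**: growth. -/
def GrowthPartG : Prop := ∀ (n : ℕ) (X : Type) [TopologicalSpace X] [T2Space X] [CompactSpace X]
  [ConnectedSpace X] [ChartedSpace (Cm n) X] [IsManifold 𝓘(ℂ, Cm n) ω X]
  (χ : D.FormM n X) (_ : IsKahler χ) (m : ℕ) (_ : 0 < m) (Λ : D.FormM n X) (_ : IsClosedForm Λ)
  (ρ : X → ℝ) (_ : SmoothFn (n := n) ρ) (_ : ∀ x, 0 ≤ ρ x) (θ β : D.FormM n X)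
  (_ : IsClosedForm θ) (_ : IsClosedForm β)
  (_ : ∀ e x, At e x → (θ e (e x)).PosSemidef) (_ : ∀ e x, At e x → (β e (e x)).PosSemidef)
  (ν : ℕ) (_ : ∀ e x, At e x → (θ e (e x)).rank ≤ ν)
  (_ : ∀ x, ∃ (r N : ℕ) (g : Fin r → X → ℂ) (a : Fin r → ℕ) (H : Fin N → X → ℂ),
    LocAt m Λ ρ x g a H ∧
    ∀ᶠ y in 𝓝 x, (∀ e, At e y → θ e (e y) = (((m : ℝ)⁻¹ : ℝ) : ℂ) •
        hess (fun y => Real.log (∑ b, ‖H b y‖ ^ 2)) e (e y)) ∧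
      ∀ i, g i y = 0 → DegAt n ν H (g i) β y),
  ∃ C₁ : ℝ, ∀ s : ℝ, 1 ≤ s → mixX (addF β s θ) Λ ≤ C₁ * s ^ ν / s

/-- **Theorem KG**. -/
def MainPartG : Prop := ∀ (n p d : ℕ) (_ : n = p + d) (X Z Y F : Type)
  [TopologicalSpace X] [T2Space X] [CompactSpace X] [ConnectedSpace X]
  [ChartedSpace (Cm n) X] [IsManifold 𝓘(ℂ, Cm n) ω X]
  [TopologicalSpace Z] [ChartedSpace (Cm n) Z] [IsManifold 𝓘(ℂ, Cm n) ω Z]
  [TopologicalSpace Y] [T2Space Y] [ConnectedSpace Y]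
  [ChartedSpace (Cm p) Y] [IsManifold 𝓘(ℂ, Cm p) ω Y]
  [TopologicalSpace F] [T2Space F] [CompactSpace F] [ConnectedSpace F]
  [ChartedSpace (Cm d) F] [IsManifold 𝓘(ℂ, Cm d) ω F]
  (χ : Chart n X → Cm n → Matrix (Fin n) (Fin n) ℂ) (_ : IsKahler χ)
  (Δ : Set X → ℝ) (_ : IsSNC (Cm n) Δ) (_ : ∀ D, Δ D < 1)
  (m N : ℕ) (_ : 0 < m) (k : Set X → ℕ) (_ : ∀ D, (k D : ℝ) = m * Δ D) (S : Fin N → X → ℂ)
  (_ : ∀ b, IsSection (Cm n) (fun (D : Set X) z g => IsLocalEq (Cm n) D g z) m k (S b))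
  (j : Z → X) (_ : IsBigOpen (Cm n) j) (f : Z → Y) (_ : ContMDiff 𝓘(ℂ, Cm n) 𝓘(ℂ, Cm p) ω f)
  (𝒢 : Set (Set Y)) (_ : IsDivisorial (Cm n) (Cm p) f 𝒢)
  (Δ' : Set Z → ℝ) (_ : IsSNC (Cm n) Δ') (_ : IsRestriction j Δ Δ')
  (_ : ∀ G, orbBase' (Cm n) (Cm p) f Δ' G ≠ 0 → G ∈ 𝒢)
  (i : F → Z) (_ : IsSmoothFibre (Cm n) (Cm p) (Cm d) f i)
  (_ : ∀ D, Δ D ≠ 0 → ∃ t, j (i t) ∉ D)
  (ν : ℕ) (_ : HasRankP n ν k id S)
  (β : Chart n X → Cm n → Matrix (Fin n) (Fin n) ℂ) (_ : IsSemiKahler β)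
  (_ : IsGoodFixP n n m ν k id S β)
  (νF : ℕ) (_ : HasRankP d νF k (fun t => j (i t)) S)
  (βF : Chart d F → Cm d → Matrix (Fin d) (Fin d) ℂ) (_ : IsSemiKahler βF)
  (_ : IsGoodFixP n d m νF k (fun t => j (i t)) S βF),
  kod (Cm d) (fun (D : Set X) t g => ∃ e, IsLocalEq (Cm n) D e (j (i t)) ∧
      ∀ᶠ t' in 𝓝 t, g t' = e (j (i t'))) Δ +
    kod (Cm p) (fun (G : Set Y) y g => IsLocalEq (Cm p) G g y) (orbBase' (Cm n) (Cm p) f Δ') ≤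
    kod (Cm n) (fun (D : Set X) x g => IsLocalEq (Cm n) D g x) Δ

end KG

end Vale.Agent.P281.H167
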