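import Vale.Agent.P281.H167.KG.Data
import Vale.Agent.P281.H167.GM.Tools

/-! P281, theorem KG: the analysis on `X`. -/

open scoped Manifold ContDiff Topology ComplexOrder
open Set Filter Vale.Agent.P281 Vale.Agent.P272.K Vale.Agent.P299
open Vale.Agent.P272.K.INT (IsClosedForm)
open Vale.Agent.P272.K.AMP (hess)
open Vale.Agent.P299.H882 (J xi qf)

noncomputable section

set_option linter.all false

namespace Vale.Agent.P281.H167.KG

open Vale.Agent.P281.MF Vale.Agent.P281.ISO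
open Vale.Agent.P281.H713 Vale.Agent.P281.H713.SA Vale.Agent.P281.H716
open Vale.Agent.P281.H716.IsSys Vale.Agent.P281.H713.KD
open Vale.Agent.P281.H167.GM (mixX addF phiD)

section

variable {n M : ℕ} {X : Type} [TopologicalSpace X] [ChartedSpace (Cm n) X]
  [IsManifold 𝓘(ℂ, Cm n) ω X] {φ : Chart n X → Cm n → ℝ} {m : ℕ} {ρ : X → ℝ} {dl : Fin M → ℝ}
  {R : Fin M → D.FormM n X} {C : ℝ} {χ : D.FormM n X}

/-- the two forms of the bound of the curvature -/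
theorem curvKGe_of (hφ : IsCanonicalMetric φ) (hρ : SmoothFn (n := n) ρ) (h0 : ∀ x, 0 ≤ ρ x)
    (hc : ∀ δ : ℝ, 0 < δ → ∀ e x, At e x → (clsK φ dl R e (e x) + (((m : ℝ)⁻¹ : ℝ) : ℂ) •
      hess (fun y => Real.log (ρ y + δ)) e (e x) +
      ((C * (δ / (ρ x + δ)) : ℝ) : ℂ) • χ e (e x)).PosSemidef) : CurvKGe φ m ρ dl R C χ := by
  intro δ hδ e x he
  have h1 := hc δ hδ e x he
  have h2 : curvK φ m ρ δ dl R e (e x) = clsK φ dl R e (e x) + (((m : ℝ)⁻¹ : ℝ) : ℂ) •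
      hess (fun y => Real.log (ρ y + δ)) e (e x) := by
    have h3 : ContDiffAt ℝ 2 (φ e) (e x) :=
      (hφ.smooth e x he).of_le (by exact WithTop.coe_le_coe.2 le_top)
    have h4 : ContDiffAt ℝ 2 (fun z => Real.log (ρ (e.symm z) + δ)) (e x) := by
      refine (((hρ e x he).add contDiffAt_const).log ?_).of_le
        (by exact WithTop.coe_le_coe.2 le_top)
      rw [he.left_inv]
      exact (add_pos_of_nonneg_of_pos (h0 x) hδ).ne'
    have h5 : cHess (phiD φ m ρ δ e) (e x) = cHess (φ e) (e x) + (((m : ℝ)⁻¹ : ℝ) : ℂ) •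
        cHess (fun z => Real.log (ρ (e.symm z) + δ)) (e x) := by
      have h6 : phiD φ m ρ δ e = fun z => φ e z + (m : ℝ)⁻¹ * Real.log (ρ (e.symm z) + δ) := rfl
      rw [h6, cHess_add h3 (contDiffAt_const.mul h4), cHess_const_mul _ h4]
    show cHess (phiD φ m ρ δ e) (e x) + ∑ i, ((dl i : ℝ) : ℂ) • R i e (e x) =
      cHess (φ e) (e x) + ∑ i, ((dl i : ℝ) : ℂ) • R i e (e x) + (((m : ℝ)⁻¹ : ℝ) : ℂ) •
        cHess (fun z => Real.log (ρ (e.symm z) + δ)) (e x)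
    rw [h5]
    abel
  rw [h2]
  exact h1

/-- `r i` is positive off `Dv i` -/
theorem bd_pos {Dv : Fin M → Set X} {r : Fin M → X → ℝ} (hB : IsBd Dv r R) {i : Fin M} {x : X}
    (hx : x ∉ Dv i) : 0 < r i x := by
  have he : At (chartAt (Cm n) x) x := ⟨chart_mem_atlas _ _, mem_chart_source _ _⟩
  obtain ⟨g, ψ, -, -, h3, -, h5⟩ := hB.loc _ x he
  have h6 := (h5.self_of_nhds i).1
  rw [he.left_inv] at h6
  rw [h6]
  have h7 : g i (chartAt (Cm n) x x) ≠ 0 := fun h0 => hx ((H342.KD.mem_iff (h3 i)).2 h0)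
  exact mul_pos (pow_pos (norm_pos_iff.2 h7) 2) (Real.exp_pos _)

end

section

variable {n M : ℕ} {X : Type} [TopologicalSpace X] [T2Space X] [CompactSpace X] [ConnectedSpace X]
  [ChartedSpace (Cm n) X] [IsManifold 𝓘(ℂ, Cm n) ω X]

omit [T2Space X] [CompactSpace X] [ConnectedSpace X] [IsManifold 𝓘(ℂ, Cm n) ω X] in
/-- points off the divisors -/
theorem off_loc {T : Finset (Set X)} (hT : ∀ D ∈ T, ∀ x, ∃ g, J.IsLocalEq (Cm n) D g x) {x : X}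
    (hx : x ∈ off (fun (D : Set X) z g => J.IsLocalEq (Cm n) D g z) T) : ∀ D ∈ T, x ∉ D := by
  intro D hD hxD
  obtain ⟨g, hg⟩ := hT D hD x
  exact hx D hD g hg ((H342.KD.mem_iff hg).1 hxD)

/-- the hypothesis of the bridge -/
theorem core_of_dat (hcore : CorePartK) {χ : D.FormM n X} (hχ : IsKahler χ)
    {φ : Chart n X → Cm n → ℝ} (hφ : IsCanonicalMetric φ) {m N : ℕ} (hm : 0 < m) {ρ : X → ℝ}
    {Δ : Set X → ℝ} {T : Finset (Set X)} (hTΔ : ∀ D, D ∈ T ↔ Δ D ≠ 0)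
    (hTex : ∀ D ∈ T, ∀ x, ∃ g, J.IsLocalEq (Cm n) D g x)
    {Dv : Fin M → Set X} (hDv : ∀ i, Dv i ∈ T) {r : Fin M → X → ℝ} {R : Fin M → D.FormM n X}
    (hB : IsBd Dv r R) (hΔ : ∀ D, 0 ≤ Δ D ∧ Δ D < 1) {S : Fin N → X → ℂ} {β : D.FormM n X}
    (hβ : H167.IsSemiKahler β) {C : ℝ} {θ : D.FormM n X} {ν : ℕ} {C₁ : ℝ} {R' : Set X}
    (hD : SysDat n (fun (D : Set X) z g => J.IsLocalEq (Cm n) D g z) T m S χ
      (clsK φ (fun i => Δ (Dv i)) R) ρ β C θ ν C₁ R')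
    (p' μ : ℕ) (K : Fin M → ℕ) (N₀ N₁ : D.FormM n X → X → ℝ) (u : X → ℝ)
    (hK : ∀ i, (K i : ℝ) ≤ μ * Δ (Dv i)) (hdec : IsDecPair Dv r χ p' μ K N₀ N₁)
    (hu : ∀ g x, IsKahler g → 0 < N₀ g x → 0 < N₁ g x →
      u x = Real.log (N₁ g x) - Real.log (N₀ g x)) :
    ∀ x ∈ R', 0 < N₀ χ x → 0 < N₁ χ x → ∀ e, At e x → ∀ a₀, S a₀ x ≠ 0 → ∀ v : Cm n,
      (∀ a, fderiv ℂ (fun z => S a (e.symm z) / S a₀ (e.symm z)) (e x) v = 0) →
      ∑ i, xi u e (e x) i * v i = 0 := by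
  intro x hx h0 h1 e he a₀ ha₀ v hv
  obtain ⟨hxo, hρx, -, hg⟩ := hD.good x hx
  refine hcore n M X χ hχ φ hφ m hm ρ hD.smooth hD.nonneg Dv r R hB (fun i => Δ (Dv i))
    (fun i => hΔ (Dv i)) C (curvKGe_of hφ hD.smooth hD.nonneg hD.curv) θ β hD.closed
    (GM.IsSemiKahler.isClosedForm hβ) hD.psd hβ.posSemidef ν C₁
    ((eventually_ge_atTop 1).frequently.mono fun s hs => hD.growth s hs) p' μ K hK N₀ N₁ hdec u hu e
    x he h0 h1 hρx (fun i => bd_pos hB (off_loc hTex hxo (Dv i) (hDv i))) (hg e he).1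
    (hg e he).2 v ?_
  exact (hD.ker e x he hxo a₀ ha₀ v).2 hv

end

end Vale.Agent.P281.H167.KG
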